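import Crest.Agent.X212.Tan54.Gen
import Crest.Agent.X212.Top68.Defs
import Crest.Agent.X212.Abel74.Red
import Crest.Agent.X212.Std94.Smo

/-! The abelian theory at a point with nowhere vanishing spinor has index zero. -/

set_option autoImplicit false
set_option linter.unusedSectionVars false
noncomputable section
open scoped Manifold ContDiff Topology InnerProductSpace
open MeasureTheory Function Filter Finset

namespace Crest.Agent.X212.Tan54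
open An An.Pre Sob92 Ell97 Map77

/-- `x ↦ ⟪u, L x⟫ v` -/
def rk {X Y Z : Type} [NormedAddCommGroup X] [NormedSpace ℝ X] [NormedAddCommGroup Y]
    [InnerProductSpace ℝ Y] [NormedAddCommGroup Z] [NormedSpace ℝ Z] (L : X →L[ℝ] Y) (u : Y)
    (v : Z) : X →L[ℝ] Z := (innerSL ℝ u ∘L L).smulRight v

variable {E : Type} [NormedAddCommGroup E] [NormedSpace ℝ E] [FiniteDimensional ℝ E]
  [MeasurableSpace E] [BorelSpace E]
  {HM : Type} [TopologicalSpace HM] {I : ModelWithCorners ℝ E HM} [I.Boundaryless]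
  {M : Type} [TopologicalSpace M] [ChartedSpace HM M] [IsManifold I ∞ M]
  [MeasurableSpace M] [T2Space M] [BorelSpace M] [SecondCountableTopology M]
  {ι κ : Type} [Fintype ι] [Fintype κ] [DecidableEq κ] {F : Fr I M ι}

section rk
variable {X Y Z : Type} [NormedAddCommGroup X] [NormedSpace ℝ X] [NormedAddCommGroup Y]
  [InnerProductSpace ℝ Y] [NormedAddCommGroup Z] [NormedSpace ℝ Z]

theorem rk_apply (L : X →L[ℝ] Y) (u : Y) (v : Z) (x : X) : rk L u v x = ⟪u, L x⟫_ℝ • v := rfl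

theorem cb_rk {F : Pre I M ι} (L : X →L[ℝ] Y) {u : M → Y} {v : M → Z} (hu : F.Cb u) (hv : F.Cb v) :
    F.Cb fun x => rk L (u x) (v x) :=
  Cb_bil (ContinuousLinearMap.smulRightL ℝ X Z) (Cb_comp (Cb_clm (innerSL ℝ) hu) (Cb_const L)) hv

end rk

variable (d : Bd M ι κ) (n : M → HS κ) (Φ : M → Eu κ)

/-- `ρ (e^a ∧ e^b) Φ` -/
def wd (x : M) (s : ι × ι) : Eu κ := d.ρ s.1 x (d.ρ s.2 x (Φ x)) + d.P s.1 s.2 x • Φ x

/-- the bundle isometry given by a unit spinor -/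
def Dm (x : M) : CL (Cf ι κ) (P2 (HS κ) (Ef ι κ)) :=
  pr2 (rk fp (Φ x) (-n x)) (pr2 (∑ b, rk (Map77.pj _ b ∘L fa) (n x) (d.ρ b x (Φ x)))
    (tp fun s => rk fp (wd d Φ x s) ((1 / 2 : ℝ) • n x)))

/-- a rank one theory with a unit spinor -/
structure Un : Prop extends d.OK where
  g1 : ∀ x v, d.g x v = ⟪n x, v⟫_ℝ • n x
  n1 : ∀ x, ⟪n x, n x⟫_ℝ = 1
  pΦ : ∀ x, d.sp x (Φ x) = Φ x
  Φ1 : ∀ x, ⟪Φ x, Φ x⟫_ℝ = 1
  st : ∀ x a b, ∑ c, ∑ e, d.o a b c e x • d.ρ c x (d.ρ e x (Φ x)) =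
    d.ρ a x (d.ρ b x (Φ x)) - d.ρ b x (d.ρ a x (Φ x))
  par : ∀ x v, d.sp x v = v → ∑ a, ∑ b, ⟪d.ρ a x (d.ρ b x (Φ x)), v⟫_ℝ • d.ρ a x (d.ρ b x (Φ x)) =
    (4 : ℝ) • v

variable {d n Φ}

theorem Dm1 (x : M) (u : Cf ι κ) : f2 _ _ (Dm d n Φ x u) = -⟪Φ x, fp u⟫_ℝ • n x := by
  simp [Dm, rk_apply]

theorem Dm2 (x : M) (u : Cf ι κ) :
    f2 _ _ (s2 _ _ (Dm d n Φ x u)) = ∑ b, ⟪n x, fa u b⟫_ℝ • d.ρ b x (Φ x) := by
  simp [Dm, rk_apply]

theorem Dm3 (x : M) (u : Cf ι κ) (s : ι × ι) :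
    s2 _ _ (s2 _ _ (Dm d n Φ x u)) s = (⟪wd d Φ x s, fp u⟫_ℝ / 2) • n x := by
  simp [Dm, rk_apply, smul_smul, div_eq_mul_inv]

theorem cb_Dm {F : Pre I M ι} (hP : ∀ a b, F.Cb (d.P a b)) (hρ : ∀ a, F.Cb (d.ρ a)) (hn : F.Cb n)
    (hΦ : F.Cb Φ) : F.Cb (Dm d n Φ) := by
  refine Cb_pr2 (cb_rk _ hΦ (Cb_neg hn)) (Cb_pr2
    (Cb_sum _ fun b _ => cb_rk _ hn (Cb_app (hρ b) hΦ)) ?_)
  simp only [tp_eq]
  exact Cb_sum _ fun s _ => Cb_comp (Cb_const _) (cb_rk _ (Cb_add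
    (Cb_app (hρ _) (Cb_app (hρ _) hΦ)) (Cb_smul (hP _ _) hΦ)) (Cb_smul (Cb_const _) hn))

namespace Un
variable (h : Un d n Φ) (x : M)
include h

theorem cl (a b : ι) : d.ρ a x (d.ρ b x (Φ x)) + d.ρ b x (d.ρ a x (Φ x)) =
    (-2 * d.P a b x) • Φ x := by simpa only [h.pΦ] using h.clp a b x (Φ x)

theorem m1 (b : ι) : d.sm x (d.ρ b x (Φ x)) = d.ρ b x (Φ x) := by
  simpa only [h.pΦ] using h.mp b x (Φ x)

theorem p2' (a b : ι) : d.sp x (d.ρ a x (d.ρ b x (Φ x))) = d.ρ a x (d.ρ b x (Φ x)) := by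
  simpa only [h.m1] using h.pm a x (d.ρ b x (Φ x))

theorem Pρ' (a : ι) (v : Eu κ) : ∑ b, d.P a b x • d.ρ b x v = d.ρ a x v := by
  simp [← h.Pρ a x]

theorem sd_wd : SD (d.Px x) (d.ox x) (wd d Φ x) := by
  have e : ∀ a b, wd d Φ x (a, b) = -wd d Φ x (b, a) := fun a b => by
    have := h.cl x a b
    simp only [wd, h.Ps b a]
    linear_combination (norm := module) this
  refine ⟨e, fun a b => ?_, fun a b => ?_⟩
  · simp only [wd, smul_add, sum_add_distrib, h.Pρ', smul_smul, ← sum_smul, h.Pi]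
  · have e1 : ∑ c, ∑ k, d.o a b c k x * d.P c k x = 0 := by
      have : ∑ c, ∑ k, d.o a b c k x * d.P c k x = -∑ c, ∑ k, d.o a b c k x * d.P c k x := by
        conv_lhs => rw [sum_comm]
        simp only [← sum_neg_distrib]
        exact sum_congr rfl fun c _ => sum_congr rfl fun k _ => by
          rw [h.Ps k, show d.o a b k c x = -d.o a b c k x from (h.vol x).a3 a b k c, neg_mul]
      linarith
    have := h.cl x a b
    simp only [wd, smul_add, sum_add_distrib, smul_smul, ← sum_smul, e1, h.st]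
    linear_combination (norm := module) -this

theorem gn (r : ℝ) : d.g x (r • n x) = r • n x := by rw [map_smul, h.g1, h.n1, one_smul]

theorem p2_Dm (u : Cf ι κ) :
    d.p2 x (s2 _ _ (s2 _ _ (Dm d n Φ x u))) = s2 _ _ (s2 _ _ (Dm d n Φ x u)) :=
  fm_ext fun s => by
    rw [h.p2, idx_apply, Dm3, ← (h.sd_wd x).fix s]
    simp only [Dm3, h.gn, smul_smul, ← sum_smul, sum_inner, real_inner_smul_left, sum_div,
      mul_div_assoc]

theorem sm_Dm (u : Cf ι κ) :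
    d.sm x (f2 _ _ (s2 _ _ (Dm d n Φ x u))) = f2 _ _ (s2 _ _ (Dm d n Φ x u)) := by
  simp only [Dm2, map_sum, map_smul, h.m1]

theorem q_Dm (u : Cf ι κ) : ps d.g d.pE x (Dm d n Φ x u) = Dm d n Φ x u :=
  ext2 (by rw [f2_ps, Dm1, h.gn])
    (ext2 (by rw [s2_ps, f2_ps, h.sm_Dm]) (by rw [s2_ps, s2_ps, h.p2_Dm]))

theorem iso (u v : Cf ι κ) : ⟪Dm d n Φ x u, Dm d n Φ x v⟫_ℝ = ⟪d.pC x u, v⟫_ℝ := by
  have e1 : ∀ a b, ⟪d.ρ a x (Φ x), d.ρ b x (Φ x)⟫_ℝ = d.P a b x := fun a b => by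
    have := congrArg (fun z => ⟪Φ x, z⟫_ℝ) (h.cl x a b)
    simp only [inner_add_right, real_inner_smul_right, h.Φ1] at this
    linarith [h.sk a x (Φ x) (d.ρ b x (Φ x)), h.sk b x (Φ x) (d.ρ a x (Φ x)),
      real_inner_comm (d.ρ a x (Φ x)) (d.ρ b x (Φ x))]
  have e2 : ∀ w, ∑ a, ∑ b, d.P a b x * ⟪d.ρ a x (d.ρ b x (Φ x)), w⟫_ℝ = -4 * ⟪Φ x, w⟫_ℝ := fun w => by
    have : ∀ a, ∑ b, d.P a b x * ⟪d.ρ a x (d.ρ b x (Φ x)), w⟫_ℝ = -(d.P a a x * ⟪Φ x, w⟫_ℝ) :=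
      fun a => by
        have e := congrArg (fun z => ⟪z, w⟫_ℝ) (h.cl x a a)
        have e' := congrArg (fun z => ⟪d.ρ a x z, w⟫_ℝ) (h.Pρ' x a (Φ x))
        simp only [inner_add_left, real_inner_smul_left, map_sum, map_smul, sum_inner] at e e'
        linarith
    simp only [this, sum_neg_distrib, ← sum_mul, (h.vol x).tr]
    ring
  have e3 : ∑ a, ∑ b, d.P a b x * d.P a b x = 4 := by simp only [h.Pi', (h.vol x).tr]
  have e4 := congrArg (fun z => ⟪z, fp v⟫_ℝ) (h.par x _ (h.sp.idem x (fp u)))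
  simp only [sum_inner, real_inner_smul_left, ← h.sp.symm, h.p2'] at e4
  have e5 : ∑ s, ⟪wd d Φ x s, fp v⟫_ℝ / 2 * (⟪wd d Φ x s, fp u⟫_ℝ / 2) =
      ⟪d.sp x (fp u), fp v⟫_ℝ - ⟪Φ x, fp u⟫_ℝ * ⟪Φ x, fp v⟫_ℝ := by
    have : ∀ X Y P a b : ℝ, (Y + P * b) / 2 * ((X + P * a) / 2) =
      (X * Y + P * X * b + P * Y * a + P * P * (a * b)) / 4 := fun _ _ _ _ _ => by ring
    simp only [wd, inner_add_left, real_inner_smul_left, this, Fintype.sum_prod_type, ← sum_div,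
      sum_add_distrib, ← sum_mul, e2, e3, e4]
    ring
  have e6 : ⟪d.p1 x (fa u), fa v⟫_ℝ = ∑ a, ∑ b, ⟪n x, fa v a⟫_ℝ * (⟪n x, fa u b⟫_ℝ * d.P b a x) := by
    simp only [inner_fm, h.p1, idx_apply, sum_inner, real_inner_smul_left, h.g1]
    exact sum_congr rfl fun a _ => sum_congr rfl fun b _ => by rw [h.Ps b]; ring
  rw [inner2, inner2, inner2, inner_fm (X := HS κ), f2_ps, s2_ps, e6]
  simp only [Dm1, Dm2, Dm3, sum_inner, inner_sum, real_inner_smul_left, real_inner_smul_right, h.n1,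
    mul_one, e1, e5]
  ring

theorem key (u₀ : M → Cf ι κ) (a : ι) (u v : Cf ι κ) :
    ⟪(d.full F u₀).σ a x u, Dm d n Φ x v⟫_ℝ =
      ∑ c, ⟪n x, fa u c⟫_ℝ * ⟪d.ρ a x (d.ρ c x (Φ x)), fp v⟫_ℝ -
        ∑ c, ⟪n x, fa v c⟫_ℝ * ⟪d.ρ a x (d.ρ c x (Φ x)), fp u⟫_ℝ := by
  rw [← inner_tr, h.tr_full, h.p2_Dm, h.sm_Dm, Dm1, h.gn, inner2, inner_fm (X := HS κ)]
  simp only [map_sub, f2_i1, f2_i2, s2_i1, s2_i2, sub_zero, zero_sub, PiLp.add_apply, ea_apply]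
  rw [real_inner_comm _ (s2 _ _ u)]
  simp only [Dm2, Dm3, wd, map_sum, map_smul, inner_neg_left, inner_add_right, inner_add_left,
    sum_inner, real_inner_smul_left, real_inner_smul_right, real_inner_comm (n x), h.Ps _ a,
    ← sub_eq_add_neg]
  congr 1
  exact sum_congr rfl fun c _ => by ring

omit x in
theorem fr [CompactSpace M] (H : d.Hy F F) (hn : F.Cb n) (hΦ : F.Cb Φ) {u₀ : M → Cf ι κ}
    (hu : F.Cb u₀) (k : ℕ) : Fred93.Fr ((d.full F u₀).H F k) 0 := by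
  obtain ⟨C, h1, h2⟩ := H.good (H.nc_full hu)
  refine fr_zero h1 h2 (h.cliff_full H.P u₀) (fun x => ?_) (cb_Dm H.cP H.cρ hn hΦ) h.q_Dm h.iso
    (fun a x v w => ?_) k
  · by_contra h0
    have := (h.vol x).tr
    simp only [not_exists, not_not, H.P] at h0
    simp [h0] at this
  · rw [real_inner_comm _ (Dm d n Φ x v), h.key, h.key, neg_sub]

end Un

open Top68 Abel74 Wz78
variable {lam : Type} [Fintype lam] {B : Base M ι lam} {G : Geo I M ι lam} {c : Cfg M ι lam 0}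
  {ξ : M → c.m.A} (h : TP B G c ξ)
include h

theorem ok_bdt : (bdt B c.m ξ).OK := by
  have H := h.ad.ok
  have hB := h.hB
  have p := h.pt
  have i1 := fun x => ap (pp_pp hB H x)
  have i2 := fun x => ap (pm_pm hB H x)
  have r1 := fun a x => ap (pm_rho hB H a x)
  have r2 := fun a x => ap (pp_rho hB H a x)
  have cl := fun a b x => ap ((H.cl x).rel a b)
  simp only [mul_apply_eq_comp, add_apply, smul_apply] at i1 i2 r1 r2 cl
  refine ⟨fun x => ⟨hB.pr x, hB.rk x, fun a b c d => hB.o12 a b c d x,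
      fun a b c d => hB.o23 a b c d x, fun a b c d => hB.o34 a b c d x,
      fun a b c d => hB.oP a b c d x, hB.onm x⟩, ⟨fun x v => ?_, fun x v w => ?_⟩, fun _ => rfl,
    fun _ => rfl, ⟨fun x v => ?_, fun x v w => ?_⟩, ⟨fun x v => ?_, fun x v w => ?_⟩, H.ρsk,
    fun a x => (H.cl x).proj a, fun a b x v => ?_, fun a b x v => ?_, fun a x v => ?_,
    fun a x v => ?_⟩ <;> simp only [mul_apply_eq_comp]
  · rw [gt_apply, gt_apply, real_inner_smul_right, (p x).nsq, mul_div_cancel_right₀ _ (by norm_num)]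
  · simp only [gt_apply, real_inner_smul_left, real_inner_smul_right, real_inner_comm v]; ring
  · rw [← (p x).hf_pp, i1, (p x).hf_hf]
  · rw [(p x).hf_s, pp_sym hB H, (p x).hf_pp]
  · rw [← (p x).hf_pm, i2, (p x).hf_hf]
  · rw [(p x).hf_s, pm_sym hB H, (p x).hf_pm]
  · rw [cl, (p x).p_hf]
  · rw [cl, (p x).p_hf]
  · rw [r1, ← (p x).hf_pp, i1, (p x).hf_ρ, (p x).hf_hf]
  · rw [r2, ← (p x).hf_pm, i2, (p x).hf_ρ, (p x).hf_hf]

theorem un_bdt : Un (bdt B c.m ξ) (fun x => (1 / 4 : ℝ) • ξ x) fun x => ‖c.Φ x‖⁻¹ • c.Φ x := by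
  have H := h.ad.ok
  have hB := h.hB
  have n0 : ∀ x, ‖c.Φ x‖ ≠ 0 := fun x => norm_ne_zero_iff.2 (h.ne x)
  have p : ∀ x, SP I B c.m x (ξ x) (‖c.Φ x‖⁻¹ • c.Φ x) := fun x =>
    ⟨hB, H, h.sp.mem x, h.sp.sq x, by rw [map_smul, h.ad.pos], by rw [map_smul, map_smul, h.sp.Φ],
      smul_ne_zero (inv_ne_zero (n0 x)) (h.ne x)⟩
  have n1 : ∀ x, ⟪‖c.Φ x‖⁻¹ • c.Φ x, ‖c.Φ x‖⁻¹ • c.Φ x⟫_ℝ = 1 := fun x => by
    rw [real_inner_self_eq_norm_sq, norm_smul, norm_inv, norm_norm, inv_mul_cancel₀ (n0 x), one_pow]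
  refine ⟨ok_bdt h, fun x v => ?_, fun x => ?_, fun x => ?_, n1, fun x a b => ?_, fun x v hv => ?_⟩
  · rw [gt_apply, real_inner_smul_left, smul_smul]
    congr 1
    ring
  · rw [real_inner_smul_left, real_inner_smul_right, (p x).nsq]
    norm_num
  · exact (congrArg _ (p x).pos).trans (p x).hfΦ
  · obtain ⟨U, hU⟩ := b_on hB x
    have e := ap (hU.star (H.cl x) a b) (‖c.Φ x‖⁻¹ • c.Φ x)
    have e' : omA (fun a b c d => B.o a b c d x) (fun a => c.m.ρ a x) (‖c.Φ x‖⁻¹ • c.Φ x) =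
        -(‖c.Φ x‖⁻¹ • c.Φ x) := by
      have := ap (om_pp hB H x) (‖c.Φ x‖⁻¹ • c.Φ x)
      rwa [mul_apply_eq_comp, neg_apply, (p x).pos] at this
    simpa only [_root_.sum_apply, smul_apply, neg_apply, mul_apply_eq_comp, e', map_neg, neg_neg,
      sub_apply] using e
  · have hv' : hf c.m x (ξ x) (c.m.pp B x v) = v := hv
    have := (p x).par2 (v := v) (by rw [← hv', (p x).hf_hf])
      (by rw [← hv', (p x).hf_pp]; exact ap (pp_pp hB H x) _)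
    rwa [n1, mul_one] at this

variable [CompactSpace M]

theorem hy_bdt : (bdt B c.m ξ).Hy G.F G.F := by
  have H := h.ad.ok
  have hB := h.hB
  have g : G.F.Cb fun x => gt (ξ x) := Cb_smul (Cb_const _)
    (Cb_bil rkL (Cb_of_compact h.sp.sm) (Cb_of_compact h.sp.sm))
  have f : G.F.Cb fun x => hf c.m x (ξ x) := Cb_of_compact (h.sp.toRed.sm_hf H)
  exact ⟨⟨h.tame, h.tame, Prm93.cmp_compact _ _⟩, ok_bdt h, h.hG.P,
    fun a b => Cb_of_compact (hB.sP a b), fun a => Cb_of_compact (H.sρ a), g,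
    Std94.Kl.idx (K := Std94.cbK G.F.toPre) (fun a b => Cb_of_compact (hB.sP a b)) g,
    Std94.Kl.idx (K := Std94.cbK G.F.toPre)
      (fun s t => Cb_of_compact ((Std94.dat_sm hB H).sd s t)) g,
    Cb_comp f (Cb_of_compact (sm_pp H hB)), Cb_comp f (Cb_of_compact (sm_pm H hB))⟩

/-- **TAN** -/
theorem tan : Tan B G c ξ := by
  have hΦ : G.F.Cb c.Φ := Cb_of_compact h.ad.sm
  refine ⟨hy_bdt h, (un_bdt h).fr (hy_bdt h) (Cb_smul (Cb_const _) (Cb_of_compact h.sp.sm))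
    (Cb_smul (Cb_of_compact fun x => ?_) hΦ) (Cls.base (K := cb (fun _ : Unit => G.F.toPre) Set.univ)
      (W := fun _ => c.W) (Φ := fun _ => c.Φ)
      (fun a _ _ => Cb_of_compact (h.ad.conn.cc.sm a)) (fun _ _ => hΦ) () trivial)⟩
  exact ((contDiffAt_norm ℝ (h.ne x)).inv (norm_ne_zero_iff.2 (h.ne x))).contMDiffAt.comp x
    (h.ad.sm x)

end Crest.Agent.X212.Tan54
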