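import Crest.Agent.X212.Map77.Qm

/-! An operator of Dirac type which becomes formally skew after a bundle isometry has index zero. -/

set_option autoImplicit false
set_option linter.unusedSectionVars false
noncomputable section
open scoped Manifold ContDiff Topology InnerProductSpace
open MeasureTheory Set Function Filter

namespace Crest.Agent.X212.Tan54
open An An.Pre Sob92 Ell97 Map77

section alg
variable {V W : Type} [NormedAddCommGroup V] [InnerProductSpace ℝ V] [FiniteDimensional ℝ V]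
  [NormedAddCommGroup W] [InnerProductSpace ℝ W] [FiniteDimensional ℝ W]
  {p : V →L[ℝ] V} {q : W →L[ℝ] W} {σ D : V →L[ℝ] W} {c : ℝ}

theorem D_p (hp : ∀ v, p (p v) = p v) (iso : ∀ v w, ⟪D v, D w⟫_ℝ = ⟪p v, w⟫_ℝ) (v : V) :
    D (p v) = D v := by
  rw [← sub_eq_zero, ← map_sub, ← inner_self_eq_zero (𝕜 := ℝ), iso, map_sub, hp, sub_self,
    inner_zero_left]

theorem coiso (hc : c ≠ 0) (qD : ∀ v, q (D v) = D v)
    (pσ : ∀ y, p (Op.tr σ y) = Op.tr σ y) (iso : ∀ v w, ⟪D v, D w⟫_ℝ = ⟪p v, w⟫_ℝ)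
    (cl : ∀ y z, ⟪Op.tr σ y, Op.tr σ z⟫_ℝ = c * ⟪q y, z⟫_ℝ)
    (sk : ∀ v w, ⟪σ v, D w⟫_ℝ = -⟪D v, σ w⟫_ℝ) (y z : W) :
    ⟪Op.tr D y, Op.tr D z⟫_ℝ = ⟪q y, z⟫_ℝ := by
  have e : ∀ y, c • Op.tr D y = -Op.tr σ (D (Op.tr σ y)) := fun y => ext_inner_left ℝ fun v => by
    rw [real_inner_smul_right, inner_tr, inner_neg_right, inner_tr, sk, neg_neg, ← tr_inner σ, cl,
      qD]
  have e1 := congrArg₂ (fun a b : V => ⟪a, b⟫_ℝ) (e y) (e z)
  simp only [real_inner_smul_left, real_inner_smul_right, inner_neg_neg, cl, qD, iso, pσ] at e1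
  exact mul_left_cancel₀ hc (mul_left_cancel₀ hc e1)

end alg

variable {E : Type} [NormedAddCommGroup E] [NormedSpace ℝ E] [FiniteDimensional ℝ E]
  [MeasurableSpace E] [BorelSpace E]
  {HM : Type} [TopologicalSpace HM] {I : ModelWithCorners ℝ E HM} [I.Boundaryless]
  {M : Type} [TopologicalSpace M] [ChartedSpace HM M] [IsManifold I ∞ M]
  [MeasurableSpace M] [T2Space M] [BorelSpace M] [SecondCountableTopology M] [CompactSpace M]
  {ι : Type} [Fintype ι]
  {V W : Type} [NormedAddCommGroup V] [InnerProductSpace ℝ V] [FiniteDimensional ℝ V]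
  [NormedAddCommGroup W] [InnerProductSpace ℝ W] [FiniteDimensional ℝ W]
  {F : Fr I M ι} {C C' : ℕ → ℝ}

/-- a formally skew elliptic operator has index zero -/
theorem zero_of_skew {A : Op M ι V V} (hF : F.Tame C) (hA : A.Good F C') (hc : A.CliffL F)
    (e : A.q = A.p) (sk : ∀ a x v w, ⟪A.σ a x v, w⟫_ℝ = -⟪v, A.σ a x w⟫_ℝ) {n : ℤ}
    (h : ∀ k, Fred93.Fr (A.H F k) n) : n = 0 := by
  obtain ⟨p, q, σ, B⟩ := A
  obtain rfl : q = p := e
  obtain ⟨C'', h1⟩ := good_adj hF hA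
  have e1 : Op.adj F ⟨q, q, σ, B⟩ = ⟨q, q, σ, (Op.adj F ⟨q, q, σ, B⟩).B⟩ := by
    refine congrArg (fun s => (⟨q, q, s, (Op.adj F ⟨q, q, σ, B⟩).B⟩ : Op M ι V V))
      (funext fun a => funext fun x => ContinuousLinearMap.ext fun v =>
        ext_inner_left ℝ fun w => ?_)
    rw [_root_.neg_apply, inner_neg_right, inner_tr]
    exact neg_eq_iff_eq_neg.2 (sk a x w v)
  have h2 := fr_congr hA (e1 ▸ h1) (h 0)
  have h3 : Fred93.Fr (Hs F ⟨q, q, σ, B⟩ 0) n := h2.congr fun x => by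
    simp only [Hs, Op.H]
    congr 2
    exact congrArg Op.σ e1
  have := (h3.comp (h 1)).unique (fr_LL hF hA hc 0)
  omega

/-- **Index zero.** -/
theorem fr_zero {A : Op M ι V W} (hF : F.Tame C) (hA : A.Good F C') (hc : A.Cliff F)
    (hP : ∀ x, ∃ a, F.P a a x ≠ 0) {D : M → V →L[ℝ] W} (hD : F.Cb D)
    (qD : ∀ x v, A.q x (D x v) = D x v) (iso : ∀ x v w, ⟪D x v, D x w⟫_ℝ = ⟪A.p x v, w⟫_ℝ)
    (sk : ∀ a x v w, ⟪A.σ a x v, D x w⟫_ℝ = -⟪D x v, A.σ a x w⟫_ℝ) (k : ℕ) :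
    Fred93.Fr (A.H F k) 0 := by
  have al := Alg.of_good hA
  have hT : F.Cb fun x => Op.tr (D x) := Cb_clm (trL V W) hD
  have pT : ∀ x y, A.p x (Op.tr (D x) y) = Op.tr (D x) y := fun x y => ext_inner_left ℝ fun v => by
    rw [← al.p.symm, inner_tr, inner_tr, D_p (al.p.idem x) (iso x)]
  have co : ∀ x y z, ⟪Op.tr (D x) y, Op.tr (D x) z⟫_ℝ = ⟪A.q x y, z⟫_ℝ := fun x => by
    obtain ⟨a, ha⟩ := hP x
    refine coiso ha (qD x) (fun y => ?_) (iso x) (fun y z => ?_) (sk a x)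
    · exact ext_inner_left ℝ fun v => by rw [← al.p.symm, inner_tr, inner_tr, al.σp]
    · have := hc.2 a a x y z
      simp only [Op.adj, _root_.neg_apply, inner_neg_neg] at this
      linarith
  let A' : Op M ι V V := ⟨A.p, A.p, fun a x => Op.tr (D x) ∘L A.σ a x, fun x => Op.tr (D x) ∘L A.B x⟩
  obtain ⟨C'', h1, h2⟩ := good_of (A := A') hF ⟨_, hA.p.cb⟩ ⟨_, hA.p.cb⟩
    (fun a => Cb_comp hT ⟨_, hA.σ a⟩) (Cb_comp hT ⟨_, hA.B⟩)
    ⟨al.p, al.p, fun a x v => congrArg (Op.tr (D x)) (al.σp a x v), fun a x v => pT x _,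
      fun x v => pT x _, fun a x => by
        simp only [A', ← ContinuousLinearMap.comp_smul, ← ContinuousLinearMap.comp_finsetSum,
          al.Pσ]⟩
  have mT : Maps A.q A.p fun x => Op.tr (D x) := Maps.of_left pT
  have mD : Maps A.p A.q D := Maps.of_left qD
  have h3 : ∀ k, Fred93.Fr (F.mulH k A.q A.p fun x => Op.tr (D x)) 0 := fun k =>
    Fred93.Fr.equiv (ContinuousLinearEquiv.equivOfInverse _ (F.mulH k A.p A.q D)
      (fun y => (mulH_mulH hT mT hD mD y).trans (mulH_id (fun x v hv => ext_inner_left ℝ fun w => by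
        rw [ContinuousLinearMap.comp_apply, ← tr_inner, co, al.q.symm, hv]) y))
      fun y => (mulH_mulH hD mD hT mT y).trans (mulH_id (fun x v hv => ext_inner_left ℝ fun w => by
        rw [ContinuousLinearMap.comp_apply, inner_tr, iso, al.p.symm, hv]) y))
  have h4 : ∀ k, A'.H F k = F.mulH k A.q A.p (fun x => Op.tr (D x)) ∘L A.H F k := fun k =>
    RepT_eq (rep_OpH h2 k).1 (RepT_comp (rep_mulH hT mT) (rep_OpH hA k).1) fun u =>
      funext fun x => by simp [A', Op.app, Pre.op]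
  refine (fr hF hA hc k).cast (zero_of_skew (A := A') h1 h2 (fun a b x v w => ?_) rfl
    (fun a x v w => ?_) fun k => h4 k ▸ ((h3 k).comp (fr hF hA hc k)).cast (zero_add _))
  · simp only [A', ContinuousLinearMap.comp_apply, co, al.qσ]
    exact hc.1 a b x v w
  · simp only [A', ContinuousLinearMap.comp_apply, tr_inner, inner_tr, sk]

end Crest.Agent.X212.Tan54
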