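import Crest.Agent.X212.Tan54.Rot
import Crest.Agent.X212.Tan54.Main

/-! Finitely many linear terms span the cokernel at a point of type S. -/

set_option autoImplicit false
set_option linter.unusedSectionVars false
noncomputable section
open scoped Manifold ContDiff Topology InnerProductSpace
open MeasureTheory Function Filter Set

namespace Crest.Agent.X212.Tan54
open An An.Pre Sob92 Abel74 Map77 Top68
open Fred93 (Fr)

theorem fin_span {X Y H : Type} [NormedAddCommGroup X] [NormedSpace ℝ X] [NormedAddCommGroup Y]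
    [NormedSpace ℝ Y] [NormedAddCommGroup H] [NormedSpace ℝ H] {D : X →L[ℝ] Y} {R : X →L[ℝ] H}
    (hD : (D.prod R).IsFredholm) {S : Set Y}
    (h : Dense (D.range ⊔ Submodule.span ℝ S : Submodule ℝ Y).carrier) :
    ∃ (m : ℕ) (w : Fin m → Y), (∀ b, w b ∈ S) ∧
      ∀ y, ∃ (x : X) (a : Fin m → ℝ), y = D x + ∑ b, a b • w b := by
  have h0 : FiniteDimensional ℝ ((Y × H) ⧸ (D.prod R).range) := hD.finite_coker
  have le : (D.prod R).range ≤ D.range.comap (LinearMap.fst ℝ Y H) := by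
    rintro _ ⟨x, rfl⟩
    exact ⟨x, rfl⟩
  have h1 : FiniteDimensional ℝ (Y ⧸ D.range) :=
    .of_surjective (Submodule.mapQ _ _ _ le) fun q => by
      obtain ⟨y, rfl⟩ := Submodule.mkQ_surjective _ q
      exact ⟨Submodule.mkQ _ (y, 0), rfl⟩
  have h2 : IsClosed (D.range : Set Y) :=
    (Submodule.isClosed_mono_of_finiteDimensional_quotient hD.isClosed_range le).preimage
      (ContinuousLinearMap.inl ℝ Y H).continuous
  have h3 : D.range ⊔ Submodule.span ℝ S = ⊤ := Submodule.eq_top_iff'.2 fun y =>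
    (Submodule.isClosed_mono_of_finiteDimensional_quotient h2 le_sup_left).closure_subset (h y)
  have h4 : Submodule.span ℝ (D.range.mkQ '' S) = ⊤ := by
    rw [← Submodule.map_span, Submodule.map_mkQ_eq_top, h3]
  obtain ⟨t, ht, h5⟩ := (Submodule.fg_span_iff_fg_span_finset_subset _).1
    (h4 ▸ Module.finite_def.1 h1)
  choose w hw hw' using fun b : Fin t.card => ht (t.equivFin.symm b).2
  refine ⟨_, w, hw, fun y => ?_⟩
  have h6 : D.range.mkQ y ∈ Submodule.span ℝ (range fun b => D.range.mkQ (w b)) := by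
    refine Submodule.span_mono (s := t)
      (fun q hq => mem_range.2 ⟨t.equivFin ⟨q, hq⟩, by simp [hw']⟩) ?_
    rw [← h5, h4]
    trivial
  obtain ⟨a, ha⟩ := (Submodule.mem_span_range_iff_exists_fun ℝ).1 h6
  obtain ⟨x, hx⟩ : y - ∑ b, a b • w b ∈ D.range := by
    rw [← Submodule.Quotient.mk_eq_zero, ← Submodule.mkQ_apply, map_sub, map_sum, ← ha]
    simp only [map_smul, sub_self]
  exact ⟨x, a, (sub_eq_iff_eq_add.1 hx.symm)⟩

/-- the derivative at zero -/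
abbrev HD {W : Type} [NormedAddCommGroup W] [InnerProductSpace ℝ W] (g : ℝ → W) (w : W) : Prop :=
  HasDerivAt g w 0

variable {E : Type} [NormedAddCommGroup E] [NormedSpace ℝ E] [FiniteDimensional ℝ E]
  [MeasurableSpace E] [BorelSpace E]
  {HM : Type} [TopologicalSpace HM] {I : ModelWithCorners ℝ E HM} [I.Boundaryless]
  {M : Type} [TopologicalSpace M] [ChartedSpace HM M] [IsManifold I ∞ M]
  [MeasurableSpace M] [T2Space M] [BorelSpace M] [SecondCountableTopology M]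
  {ι : Type} [Fintype ι]

section gen
variable {κ : Type} [Fintype κ] [DecidableEq κ] {F : An.Fr I M ι} {d t : Bd M ι κ}
  {P S : Type} [NormedAddCommGroup P] [NormedSpace ℝ P] [NormedAddCommGroup S] [NormedSpace ℝ S]
  {u : M → Cf ι κ} {e : (M → Cf ι κ) → P → M → Ef ι κ} {s : (M → Cf ι κ) → P → S} {j k : ℕ}

variable (F d t) in
/-- a sub-theory -/
structure Sub : Prop where
  hd : d.Hy F F
  ht : t.Hy F F
  σ : t.σ = d.σ
  β : t.β = d.β
  C : Maps t.pC d.pC (triv M _)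
  E : ∀ x y, t.pE x (d.pE x y) = t.pE x y
  E' : Maps t.pE d.pE (triv M _)

variable (F d t k) in
/-- inclusion of configurations -/
def iC : F.H k t.pC →L[ℝ] F.H k d.pC := F.mulH k t.pC d.pC (triv M _)

variable (F d t k) in
/-- inclusion of equations -/
def iE : F.H k t.pE →L[ℝ] F.H k d.pE := F.mulH k t.pE d.pE (triv M _)

variable (F d t k) in
/-- projection of equations -/
def πE : F.H k d.pE →L[ℝ] F.H k t.pE := F.mulH k d.pE t.pE t.pE

namespace Sub
variable (h : Sub F d t)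
include h

theorem mE : Maps d.pE t.pE t.pE := Maps.of_left h.ht.prjE.idem

/-- a section of the sub-bundle -/
def sC (v : Sec I t.pC) : Sec I d.pC := ⟨v.1, v.2.1, v.2.2.1, fun x => h.C x _ (v.2.2.2 x)⟩

theorem iC_toH (v : Sec I t.pC) : iC F d t k (F.toH _ _ v) = F.toH _ _ (h.sC v) :=
  RepT_toH' (rep_mulH (Cb_const _) h.C) v _ rfl

theorem incl_iC (hj : j ≤ k) (y : F.H k t.pC) :
    F.incl k j _ (iC F d t k y) = iC F d t j (F.incl k j _ y) := incl_mulH (Cb_const _) h.C hj y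

theorem val_iE (hk : 4 ≤ k) (y : F.H k t.pE) (x : M) :
    F.val _ _ (iE F d t k y) x = F.val _ _ y x := val_mulH h.hd.sup hk (Cb_const _) h.E' y x

theorem val_πE (hk : 4 ≤ k) (y : F.H k d.pE) (x : M) :
    F.val _ _ (πE F d t k y) x = t.pE x (F.val _ _ y x) := val_mulH h.hd.sup hk h.ht.cE h.mE y x

theorem πE_LL (hu : F.Cb u) (x : XH F t k) :
    πE F d t k (d.LL F.toPre F k u (iC F d t (k + 1) x)) = t.LL F.toPre F k u x := by
  refine DFunLike.congr_fun (RepT_eq (RepT_comp (rep_mulH h.ht.cE h.mE)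
    (RepT_comp (h.hd.toTw.rep (h.hd.nc_lin hu) k) (rep_mulH (Cb_const _) h.C)))
    (h.ht.toTw.rep (h.ht.nc_lin hu) k) fun v => funext fun z => ?_) x
  refine (congrArg (t.pE z) (op_cut F.toPre h.hd.cC.choose_spec.1 v.2.1 (h.sC v).2.2.2 z)).trans
    (((h.E _ _).trans ?_).trans (op_cut F.toPre h.ht.cC.choose_spec.1 v.2.1 v.2.2.2 z).symm)
  rw [h.σ, h.β]

variable [CompactSpace M] (hu : F.Cb u) (hg : Gain F d u e s) (hk : 7 ≤ k)
  {f : XH F d k × P → YH F d k × S} (hf : Rep e s f)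
include hf

omit h in
theorem der0 (v : Sec I d.pC) (x : M) : HD (fun r => e (r • v.1) 0 x)
    (F.val _ _ (fderiv ℝ f 0 (F.toH (k + 1) d.pC v, 0)).1 x) := by
  have := (hf.der 0 v 0 0).1 x
  rw [map_zero, Prod.mk_zero_zero] at this
  simp only [Submodule.coe_zero, zero_add, smul_zero] at this
  exact this

include hk

theorem tang (ta : ∀ v : Sec I d.pC, (∀ x, t.pC x (v.1 x) = v.1 x) → ∀ x,
      d.pE x (e v.1 0 x) = e v.1 0 x → t.pE x (e v.1 0 x) = e v.1 0 x) (x : XH F t k) :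
    iE F d t k (πE F d t k (fderiv ℝ f 0 (iC F d t (k + 1) x, 0)).1) =
      (fderiv ℝ f 0 (iC F d t (k + 1) x, 0)).1 := by
  induction x using H_ind with
  | hP => exact isClosed_eq (by fun_prop) (by fun_prop)
  | h v =>
    refine val_injective h.hd.sup (by omega : 4 ≤ k) (funext fun z => ?_)
    rw [h.val_iE (by omega), h.val_πE (by omega), h.iC_toH]
    have h1 := der0 hf (h.sC v) z
    refine ((t.pE z).hasFDerivAt.comp_hasDerivAt _ h1).unique
      (h1.congr_of_eventuallyEq (.of_forall fun r => ?_))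
    refine ta (r • h.sC v) (r • v).2.2.2 z ?_
    rw [← hf.e (r • h.sC v) 0]
    exact val_proj h.hd.sup (by omega) _ z

include hu hg

/-- the tangential equations are in the range of the linearisation -/
theorem onto (ta : ∀ v : Sec I d.pC, (∀ x, t.pC x (v.1 x) = v.1 x) → ∀ x,
      d.pE x (e v.1 0 x) = e v.1 0 x → t.pE x (e v.1 0 x) = e v.1 0 x)
    (fr : Fr ((t.full F u).H F k) 0)
    (rig : ∀ v : Sec I t.pC, (∀ x, HD (fun r => e (r • v.1) 0 x) 0) →
      ∃ η : Sec I t.g, F.op (t.d0 F u).σ (t.d0 F u).B η.1 = v.1) (y : YH F t k) :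
    ∃ x : XH F d k, (fderiv ℝ f 0 (x, 0)).1 = iE F d t k y := by
  obtain ⟨K, hK⟩ := hg.der h.hd hu hk hf 0
  let D : XH F t k →L[ℝ] YH F t k := πE F d t k ∘L ContinuousLinearMap.fst ℝ _ S ∘L
    fderiv ℝ f 0 ∘L ContinuousLinearMap.inl ℝ _ P ∘L iC F d t (k + 1)
  have hD : ∀ x, D x = πE F d t k (fderiv ℝ f 0 (iC F d t (k + 1) x, 0)).1 := fun _ => rfl
  have h1 : Fr (D.prod (t.RR F.toPre F k u)) 0 := fr_of h.ht hu fr
    (πE F d t (k + 1) ∘L K ∘L ContinuousLinearMap.inl ℝ _ P ∘L iC F d t (k + 1)) fun x => by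
      rw [hD, hK, map_add, h.πE_LL hu]
      exact congrArg _ (incl_mulH h.ht.cE h.mE k.le_succ _).symm
  have h2 : Injective (D.prod (t.RR F.toPre F k u)) := (injective_iff_map_eq_zero _).2 fun x hx => by
    have a1 : D x = 0 := congrArg Prod.fst hx
    have a2 : t.RR F.toPre F k u x = 0 := congrArg Prod.snd hx
    have a3 : (fderiv ℝ f 0 (iC F d t (k + 1) x, 0)).1 = 0 := by
      rw [← h.tang hk hf ta, ← hD, a1, map_zero]
    obtain ⟨v, rfl⟩ := reg_of h.ht hu (by omega) a2 fun j hj y hy => by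
      obtain ⟨w, hw⟩ := hg.up h.hd hu hk hf 0 0 0 0 hj (iC F d t (j + 1) y) (by
        rw [map_zero, map_zero, h.incl_iC (by omega), hy, Prod.mk_zero_zero]
        exact a3)
      exact ⟨πE F d t _ w, by
        rw [← h.πE_LL hu, ← hw]; exact incl_mulH h.ht.cE h.mE j.le_succ _⟩
    obtain ⟨η, hη⟩ := rig v fun z => by
      have := der0 hf (h.sC v) z
      rwa [← h.iC_toH, a3, val_zero] at this
    have a4 : t.DD F.toPre F (k + 1) u (F.toH _ _ η) = F.toH _ _ v :=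
      RepT_toH' (h.ht.toTw.rep (h.ht.nc_d0 hu) (k + 1)) η v hη
    rw [← a4] at a2 ⊢
    exact h.ht.toTw.LL_eq_zero (h.ht.nc_d0 hu) (h.ht.cliffL_d0 h.ht.P u) _ a2
  obtain ⟨x, hx⟩ := h1.surj_of_inj h2 (y, 0)
  exact ⟨_, by rw [← h.tang hk hf ta x, ← hD, show D x = y from congrArg Prod.fst hx]⟩

end Sub
end gen

open Eqv71 (cj opL_cj cj_apply csL csL_apply Ad0)
open Wz78 (SA pp_pp pm_pm g_p g_p' g_J pg_of_mem pg_mem inner_pg)

variable {lam : Type} [Fintype lam] {B : Base M ι lam} {G : Geo I M ι lam} {c : Cfg M ι lam 0}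
  {ξ : M → c.m.A}

theorem ev_congr {r n : ℕ} (τ : Pt M ι lam r n) {m : Md M ι lam} {W W' : m.Cn} {Φ Φ' : M → m.V}
    {z z' : Pz r} (h1 : W = W') (h2 : Φ = Φ') (h3 : z = z') :
    Top68.ev B G τ ⟨m, W, Φ, z⟩ = Top68.ev B G τ ⟨m, W', Φ', z'⟩ := by subst h1 h2 h3; rfl

theorem idx_fix {α X : Type} [Fintype α] [NormedAddCommGroup X] [InnerProductSpace ℝ X]
    {S : α → α → ℝ} {T T' : X →L[ℝ] X} {v : Fm α X} (h : ∀ a, T (v a) = T' (v a)) :
    idx S T v = idx S T' v := fm_ext fun a => by simp only [idx_apply, h]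

/-- the imaginary unit -/
def iU : Circle := ⟨Complex.I, mem_sphere_zero_iff_norm.2 Complex.norm_I⟩

theorem ur_iU (x : M) : ur c ξ iU x = -opL (ξ x) := by simp [ur, iU]

variable (h : TP B G c ξ)
include h

theorem sm_sw : ∀ {w : SW M}, SW.OK G.F w → Sm I (c.sw G.F w)
  | [], _ => h.ad.sm
  | t :: w, hw => by
    have ih : Sm I (c.sw G.F w) := sm_sw fun t ht => hw t (List.mem_cons_of_mem _ ht)
    have h0 := hw t List.mem_cons_self
    cases t with
    | mul f => exact fun x => SA.smul (h0.choose_spec.1 x) (ih x)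
    | cl g =>
      exact contMDiff_finsetSum fun a _ x =>
        SA.smul (G.F.sm_D h0.1 a x) ((h.ad.ok.sρ a).clm_apply ih x)
    | im => exact c.m.J.contMDiff.comp ih
    | G => exact Mp86.sm_res _ _ _

theorem gt_mem (x : M) (a : c.m.A) : gt (ξ x) a ∈ c.m.gS x := by
  rw [gt_apply]; exact Submodule.smul_mem _ _ (h.sp.mem x)

theorem gt_pg (x : M) (a : c.m.A) : gt (ξ x) (c.m.pg x a) = gt (ξ x) a := by
  rw [gt_apply, gt_apply, ← inner_pg, pg_of_mem (h.sp.mem x)]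

theorem cj_gt (ζ : Circle) (x : M) (a : c.m.A) :
    cj (ur c ξ ζ x) (gt (ξ x) a) = gt (ξ x) a := by
  have e := me_ur h ζ x
  have e1 : ur c ξ ζ x * opL (ξ x) = opL (ξ x) * ur c ξ ζ x := by
    simp only [ur, sub_mul, mul_sub, smul_mul_assoc, mul_smul_comm, g_p (h.sp.mem x),
      g_p' h.ad.ok (h.sp.mem x)]
  have e2 : ur c ξ ζ x * trn (ur c ξ ζ x) = c.m.p x := e.uu'
  rw [gt_apply, map_smul, cj_apply]
  congr 1
  change hsL (_ * (_ * _)) = _
  rw [← mul_assoc, e1, mul_assoc, e2, g_p' h.ad.ok (h.sp.mem x), Eqv71.hsL_opL]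

theorem br_tan (ζ : Circle) (x : M) {v : Cf ι (Fin c.m.N)} (hv : (bdt B c.m ξ).pC x v = v) :
    br B c ξ ζ x v = v := by
  have h1 : idx (fun a b => B.P a b x) (gt (ξ x)) (fa v) = fa v := maps_f2 x v hv
  have h2 : hf c.m x (ξ x) (c.m.pp B x (fp v)) = fp v := maps_s2 x v hv
  have h3 : hf c.m x (ξ x) (fp v) = fp v := by rw [← h2, (h.pt x).hf_hf]
  refine ext2 ((f2_sm2 _ _ _).trans ((idx_fix fun a => ?_).trans h1)) ((s2_sm2 _ _ _).trans
    (cs_ur h ζ (by rw [← h3, (h.pt x).p_hf]) (xi_of_hf h.ad.ok (h.sp.mem x) (h.sp.sq x) h3)))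
  have h4 : gt (ξ x) (fa v a) = fa v a := by rw [← h1]; exact T_idx ((ok_bdt h).g.idem x) _ a
  rw [h4, ← h4, cj_gt h]

theorem tan_fix (x : M) {y : Ef ι (Fin c.m.N)} (hy : (bdm B c.m).pE x y = y)
    (h1 : f2 _ _ y = cs c.m.J iU (ur c ξ iU x (f2 _ _ y)))
    (h2 : ∀ s, s2 _ _ y s = cj (ur c ξ iU x) (s2 _ _ y s)) : (bdt B c.m ξ).pE x y = y := by
  have H := h.ad.ok
  have m := h.sp.mem x
  have a1 : c.m.pm B x (f2 _ _ y) = f2 _ _ y := maps_f2 x y hy
  have a2 : c.m.p2 B x (s2 _ _ y) = s2 _ _ y := maps_s2 x y hy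
  refine ext2 ((f2_ps _ _).trans ((congrArg _ a1).trans (hf_fix H m ((h.pt x).p_of_pm a1) ?_)))
    ((s2_ps _ _).trans ((idx_fix fun s => ?_).trans a2))
  · have e : c.m.J (c.m.J (opL (ξ x) (f2 _ _ y))) = -opL (ξ x) (f2 _ _ y) := ap H.Jsq _
    rw [ur_iU] at h1
    conv_rhs => rw [h1]
    simp [cs, iU, e]
  · have b : s2 _ _ y s ∈ c.m.gS x := a2 ▸ Wz78.p2_mem _ s
    have e := congrArg (fun η => opL (ξ x) * opL η) (h2 s)
    simp only [opL_cj, trn_ur h] at e
    have e' : opL (ξ x) * opL (s2 _ _ y s) = -(opL (ξ x) * opL (ξ x)) * opL (s2 _ _ y s) *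
        opL (ξ x) := e.trans (by rw [ur_iU]; ext1 w; simp [iU])
    rw [h.sp.sq, neg_neg, g_p b] at e'
    rw [pg_of_mem b, gt_apply, real_inner_comm]
    exact (eq_of_comm h.hB H m (h.sp.sq x) b e').symm

variable [CompactSpace M]

theorem sub_bd : Sub G.F (bdm B c.m) (bdt B c.m ξ) := by
  have H := h.ad.ok
  refine ⟨hy_bdm h.hB h.hG h.tame H, hy_bdt h, rfl, rfl, fun x v hv => ?_, fun x y => ?_,
    fun x v hv => ?_⟩
  · refine (congrArg _ hv.symm).trans (Eq.trans (ext2 ?_ ?_) hv)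
    · simp only [f2_ps, Md.p1, idx_idx, (h.hB.pr x).idem]
      exact idx_fix fun a => pg_of_mem (gt_mem h x _)
    · simp only [s2_ps, mul_apply_eq_comp, (h.pt x).hf_pp]
      exact ap (pp_pp h.hB H x) _
  · refine ext2 ?_ ?_
    · simp only [f2_ps, mul_apply_eq_comp]
      exact congrArg _ (ap (pm_pm h.hB H x) _)
    · have := ((ok_bdt h).vol x).sdm_idem
      simp only [s2_ps, Md.p2, idx_idx]
      exact (congrArg (idx · _ _) (funext₂ this)).trans (idx_fix fun a => gt_pg h x _)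
  · refine (congrArg _ hv.symm).trans (Eq.trans (ext2 ?_ ?_) hv)
    · simp only [f2_ps, mul_apply_eq_comp, (h.pt x).hf_pm]
      exact ap (pm_pm h.hB H x) _
    · have := ((ok_bdt h).vol x).sdm_idem
      simp only [s2_ps, Md.p2, idx_idx]
      exact (congrArg (idx · _ _) (funext₂ this)).trans
        (idx_fix fun a => pg_of_mem (gt_mem h x _))

theorem val_sec {w : LT M lam} (hw : w.OK G.F) : w.val B G.F c 1 ∈ Sec I (bdm B c.m).pE := by
  have H := h.ad.ok
  have hd := hy_bdm h.hB h.hG h.tame H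
  have k : ∀ {s : M → Eu lam} {u : SW M}, G.F.Cb s → SW.OK G.F u →
      Sm I fun x => cs c.m.J 1 (c.m.j x (s x) (c.sw G.F u x)) := fun hs hu =>
    (csL c.m.J 1).contMDiff.comp ((H.sj.clm_apply hs.choose_spec.1).clm_apply (sm_sw h hu))
  cases w with
  | a s u =>
    exact ⟨fun x => SA.clm (i1 c.m.V (Fm (ι × ι) c.m.A))
      ((Wz78.sm_pm H h.hB).clm_apply (k hw.2.1 hw.2.2) x),
      .of_compactSpace _, fun x => maps_i1 x _ (hd.sm.idem x _)⟩
  | b s g g' u v =>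
    obtain ⟨-, a1, a2, a3, a4, a5, -⟩ := hw
    exact ⟨fun x => SA.clm (i2 c.m.V (Fm (ι × ι) c.m.A)) (SA.app (Std94.sm_p2 h.hB H x)
      (SA.toLp fun t => SA.smul ((G.F.sm_D a2.1 t.1 x).mul (G.F.sm_D a3.1 t.2 x))
        (Wz78.sa_q (Std94.sm_pg h.hB H) (k a1 a4 x) (sm_sw h a5 x)))),
      .of_compactSpace _, fun x => maps_i2 x _ (hd.prj2.idem x _)⟩

variable {τ : Pt M ι lam 0 0}

theorem ta_of (ro : RotQ B G c ξ) (w : Wp B G.F τ) (v : Sec I (bdm B c.m).pC)
    (hv : ∀ x, (bdt B c.m ξ).pC x (v.1 x) = v.1 x) (x : M)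
    (hx : (bdm B c.m).pE x (Top68.ev B G τ (cv c v.1 0) x) = Top68.ev B G τ (cv c v.1 0) x) :
    (bdt B c.m ξ).pE x (Top68.ev B G τ (cv c v.1 0) x) = Top68.ev B G τ (cv c v.1 0) x := by
  have e := ro.eq 0 iU v 0
  rw [funext fun x => br_tan h iU x (hv x), smul_zero] at e
  have a := ad0_cv (Eqv71.ad0 h.ad) v (0 : Pz 0)
  obtain ⟨b1, b2, -⟩ := w.nat h.hB h.hG h.tame a a e
  exact tan_fix h x hx (by rw [f2_ev τ (cv c v.1 0)]; exact b1 x) fun s => by
    rw [s2_ev τ (cv c v.1 0)]; exact b2 x s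

theorem rig_of (tr : TRig B G τ c ξ) (v : Sec I (bdt B c.m ξ).pC)
    (hv : ∀ x, HD (W := Ef ι (Fin c.m.N)) (fun r => Top68.ev B G τ (cv c (r • v.1) 0) x) 0) :
    ∃ η : Sec I (bdt B c.m ξ).g, G.F.op ((bdt B c.m ξ).d0 G.F (base c.W c.Φ)).σ
      ((bdt B c.m ξ).d0 G.F (base c.W c.Φ)).B η.1 = v.1 := by
  have t := ok_bdt h
  have h1 : ∀ x, (bdt B c.m ξ).p1 x (fa (v.1 x)) = fa (v.1 x) := fun x => maps_f2 x _ (v.2.2.2 x)
  have h2 : ∀ x, hf c.m x (ξ x) (c.m.pp B x (fp (v.1 x))) = fp (v.1 x) :=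
    fun x => maps_s2 x _ (v.2.2.2 x)
  have h3 : ∀ x b, (⟪ξ x, fa (v.1 x) b⟫_ℝ / 16) • ξ x = fa (v.1 x) b := fun x b => by
    rw [← gt_apply, ← h1]; exact t.g_p1 x _ b
  have h4 : tf (fun b x => ⟪ξ x, fa (v.1 x) b⟫_ℝ / 16) ξ = fun x => fa (v.1 x) :=
    funext fun x => fm_ext (h3 x)
  have h5 : ∀ r : ℝ, Top68.ev B G τ (Eq82.var c (fun x => fa (v.1 x)) (fun x => fp (v.1 x)) 0 r) =
      Top68.ev B G τ (cv c (r • v.1) 0) := fun r =>
    ev_congr τ (funext₂ fun a x => by simp [Md.addC]) (funext fun x => by simp)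
      (Subsingleton.elim _ _)
  obtain ⟨g, g1, g2, g3⟩ := tr (fun b x => ⟪ξ x, fa (v.1 x) b⟫_ℝ / 16) (fun x => fp (v.1 x))
    (fun b x => (SA.inner (h.sp.sm x) ((pj _ b ∘L fa).contMDiff.comp v.2.1 x)).div_const 16)
    (fun b x => by
      rw [← h1, ← t.P_p1 x _ b, h1]
      simp only [inner_sum, real_inner_smul_right, Finset.sum_div, mul_div_assoc])
    (fp.contMDiff.comp v.2.1)
    (fun x => by rw [← h2, (h.pt x).hf_pp]; exact ap (pp_pp h.hB h.ad.ok x) _)
    (fun x => xi_of_hf h.ad.ok (h.sp.mem x) (h.sp.sq x) (by rw [← h2, (h.pt x).hf_hf]))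
    (fun x => by
      have := (f2 _ _).hasFDerivAt.comp_hasDerivAt _ (hv x)
      rw [map_zero] at this
      rw [h4]
      exact this.congr_of_eventuallyEq (.of_forall fun r =>
        (f2_ev τ _ x).symm.trans (congrArg (f2 _ _) (congrFun (h5 r) x))))
    (fun x s => by
      have := (pj _ s ∘L s2 _ _).hasFDerivAt.comp_hasDerivAt _ (hv x)
      rw [map_zero] at this
      rw [h4]
      exact this.congr_of_eventuallyEq (.of_forall fun r =>
        (congrArg (pj _ s) ((s2_ev τ _ x).symm.trans (congrArg (s2 _ _) (congrFun (h5 r) x))))))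
  refine ⟨⟨fun x => g x • ξ x, fun x => SA.smul (g1 x) (h.sp.sm x), .of_compactSpace _,
    fun x => ?_⟩, funext fun x => (op_d0 (hy_bdt h) c.W c.Φ _ x).trans
      ((congrArg _ (ext2 (fm_ext fun b => ?_) ?_)).trans (v.2.2.2 x))⟩
  · change gt _ _ = _
    rw [gt_apply, real_inner_smul_right, (h.pt x).nsq, mul_div_cancel_right₀ _ (by norm_num)]
  · have := h.sp.toRed.nab_xi (g1 x) b
    simp only [map_add, f2_i1, f2_i2, add_zero]
    rw [← h3, g2, neg_smul, ← this]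
    rfl
  · simp only [map_add, s2_i1, s2_i2, zero_add, map_smul, smul_apply, h.sp.Φ]
    exact (g3 x).symm

/-- **HC** -/
theorem hcQ (gn : GnQ B G c) (ro : RotQ B G c ξ) (w : Wp B G.F τ) (tr : TRig B G τ c ξ)
    (ta : Tan B G c ξ) (nd : Nd B G c ξ) {i : ℤ} (ix : Ix (bdm B c.m) G.F (base c.W c.Φ) i) :
    HcQ B G c τ := by
  intro k hk f hf
  have S := sub_bd h
  have hu := cb_base (Eqv71.ad0 h.ad)
  have hS := S.hd.sup
  have k4 : 4 ≤ k := by omega
  obtain ⟨m, y, hy, e⟩ := fin_span ((gn 0 0 τ w).fr S.hd hu hk hf (ix k) 0).1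
    (S := {y | ∃ w : LT M lam, w.OK G.F ∧ G.F.val _ _ y = w.val B G.F c 1})
    ((G.F.dense_toH k _).mono (by
      rintro _ ⟨y, rfl⟩
      let yt : Sec I (bdt B c.m ξ).pE := ⟨fun x => (bdt B c.m ξ).pE x (y.1 x),
        S.ht.cE.choose_spec.1.clm_apply y.2.1, .of_compactSpace _, fun x => S.ht.prjE.idem x _⟩
      have a1 := nd (y.1 - yt.1) (y.2.1.sub yt.2.1)
        (fun x => (map_sub _ _ _).trans (congrArg₂ (· - ·) (y.2.2.2 x) (S.E' x _ (yt.2.2.2 x))))
        (fun x => by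
          have b : c.m.pm B x (f2 _ _ (y.1 x)) = f2 _ _ (y.1 x) := maps_f2 x _ (y.2.2.2 x)
          simp only [yt, Pi.sub_apply, map_sub, f2_ps, mul_apply_eq_comp, b, (h.pt x).hf_hf,
            sub_self])
        fun x t => by
          have b : c.m.p2 B x (s2 _ _ (y.1 x)) = s2 _ _ (y.1 x) := maps_s2 x _ (y.2.2.2 x)
          have b' : ∀ a, ⟪ξ x, gt (ξ x) a⟫_ℝ = ⟪ξ x, c.m.pg x a⟫_ℝ := fun a => by
            rw [← inner_pg, pg_of_mem (h.sp.mem x), eq_comm, ← sub_eq_zero, ← inner_sub_right,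
              (h.pt x).perp_inner]
          simp only [yt, Pi.sub_apply, map_sub, s2_ps, PiLp.sub_apply, inner_sub_right]
          conv_lhs => enter [1]; rw [← b]
          simp only [Md.p2, idx_apply, inner_sum, real_inner_smul_right, b', sub_self]
      obtain ⟨z, z1, z2⟩ : ∃ z ∈ Submodule.span ℝ {y : YH G.F (bdm B c.m) k |
          ∃ w : LT M lam, w.OK G.F ∧ G.F.val _ _ y = w.val B G.F c 1},
          G.F.val _ _ z = y.1 - yt.1 := by
        refine Submodule.span_induction (fun v ⟨w, w1, w2⟩ => ?_) ⟨0, zero_mem _, val_zero⟩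
          (fun _ _ _ _ ⟨a, a1, a2⟩ ⟨b, b1, b2⟩ => ⟨a + b, add_mem a1 b1, by rw [val_add, a2, b2]⟩)
          (fun r _ _ ⟨a, a1, a2⟩ => ⟨r • a, Submodule.smul_mem _ _ a1, by rw [val_smul, a2]⟩) a1
        have b := val_toH hS k4 ⟨_, val_sec h w1⟩
        exact ⟨_, Submodule.subset_span ⟨w, w1, b⟩, b.trans w2⟩
      obtain ⟨x, hx⟩ := S.onto hu (gn 0 0 τ w) hk hf (ta_of h ro w) (ta.2 k) (rig_of h tr)
        (G.F.toH _ _ yt)
      refine Submodule.mem_sup.2 ⟨_, ⟨x, hx⟩, z, z1, val_injective hS k4 (funext fun p => ?_)⟩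
      rw [val_add, Pi.add_apply, S.val_iE k4, z2, val_toH hS k4, val_toH hS k4]
      exact add_sub_cancel _ _))
  choose w' w1 w2 using hy
  refine ⟨m, w', w1, fun z => ?_⟩
  obtain ⟨x, a, rfl⟩ := e z
  refine ⟨x, a, (val_add _ _).trans (congrArg₂ (· + ·) rfl (funext fun p => ?_))⟩
  rw [val_sum, Finset.sum_apply]
  exact Finset.sum_congr rfl fun b _ => by rw [val_smul, w2]

end Crest.Agent.X212.Tan54
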