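import Crest.Agent.X212.Top68.Mdl
import Crest.Agent.X212.Abel74.Red

/-! The stabiliser of a point of type S acts on the coordinates. -/

set_option autoImplicit false
set_option linter.unusedSectionVars false
noncomputable section
open scoped Manifold ContDiff Topology InnerProductSpace
open MeasureTheory Function Filter Finset

namespace Crest.Agent.X212.Tan54
open An An.Pre Sob92 Abel74 Map77 Eqv71 Top68
open Wz78 (g_p g_p' g_J g_ρ g_j g_skw nabE nabE_sub nabE_smul)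

variable {E : Type} [NormedAddCommGroup E] [NormedSpace ℝ E] [FiniteDimensional ℝ E]
  [MeasurableSpace E] [BorelSpace E]
  {HM : Type} [TopologicalSpace HM] {I : ModelWithCorners ℝ E HM} [I.Boundaryless]
  {M : Type} [TopologicalSpace M] [ChartedSpace HM M] [IsManifold I ∞ M]
  [MeasurableSpace M] [T2Space M] [BorelSpace M] [SecondCountableTopology M]
  {ι : Type} [Fintype ι] {lam : Type} [Fintype lam]

theorem mem_cj {J κ : Type} [Fintype κ] [DecidableEq κ] {F : J → Pre I M ι} {K : Cls F}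
    {u : J → M → En κ} (hu : K.mem u) : K.mem fun j x => cj (u j x) := by
  have h1 : K.mem fun j y => (ContinuousLinearMap.compL ℝ (Eu κ) (Eu κ) (Eu κ) (u j y) :
      CL (En κ) (En κ)) := Cls.clm _ hu
  have h2 : K.mem fun j y => ((ContinuousLinearMap.compL ℝ (Eu κ) (Eu κ) (Eu κ)).flip
      (trn (u j y)) : CL (En κ) (En κ)) := Cls.clm _ (Cls.clm trnL hu)
  have h3 : K.mem fun _ _ => (opL : CL (HS κ) (En κ)) := K.const _
  have h4 : K.mem fun _ _ => (hsL : CL (En κ) (HS κ)) := K.const _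
  exact Cls.comp h4 (Cls.comp (Cls.comp h1 h2) h3)

theorem alg_par {κ : Type} [Fintype κ] {S W A A' u : En κ} (h : S = W + A') (e : A' ∘L u = u ∘L A)
    (D : En κ) : D + S ∘L u - u ∘L (W + A) = D + (W * u - u * W) := by
  rw [h, ContinuousLinearMap.add_comp, ContinuousLinearMap.comp_add, e]
  exact (add_sub_assoc _ _ _).trans (congrArg _ (add_sub_add_right_eq_sub _ _ _))

theorem sq_add (ζ : Circle) : (ζ : ℂ).re * (ζ : ℂ).re + (ζ : ℂ).im * (ζ : ℂ).im = 1 :=
  (Complex.normSq_apply _).symm.trans (Circle.normSq_coe ζ)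

variable {B : Base M ι lam} {G : Geo I M ι lam} {c : Cfg M ι lam 0} {ξ : M → c.m.A}
  (h : TP B G c ξ)
include h

theorem trn_ur (ζ : Circle) (x : M) :
    trn (ur c ξ ζ x) = (ζ : ℂ).re • c.m.p x + (ζ : ℂ).im • opL (ξ x) := by
  refine ContinuousLinearMap.ext fun a => ext_inner_right ℝ fun b => ?_
  simp only [inner_trn, ur, sub_apply, add_apply, smul_apply, inner_sub_right, inner_add_left,
    real_inner_smul_left, real_inner_smul_right, h.ad.ok.psym x a, g_skw (h.sp.mem x) a]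
  ring

theorem me_ur (ζ : Circle) (x : M) :
    ME c.m x c.m x (fun b a => B.P b a x) (B.l x) (ur c ξ ζ x) := by
  have H := h.ad.ok
  have m := h.sp.mem x
  have k : ∀ s t : ℝ, ((ζ : ℂ).re • c.m.p x + s • opL (ξ x)) * ((ζ : ℂ).re • c.m.p x +
      t • opL (ξ x)) = ((ζ : ℂ).re * (ζ : ℂ).re - s * t) • c.m.p x +
      ((ζ : ℂ).re * (s + t)) • opL (ξ x) := fun s t => by
    simp only [mul_add, add_mul, smul_mul_assoc, mul_smul_comm, H.pidem, g_p m, g_p' H m, h.sp.sq]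
    module
  have e : ur c ξ ζ x = (ζ : ℂ).re • c.m.p x + (-(ζ : ℂ).im) • opL (ξ x) := by
    rw [ur, neg_smul, sub_eq_add_neg]
  have cm : ∀ T, T * c.m.p x = c.m.p x * T → T * opL (ξ x) = opL (ξ x) * T →
      T ∘L ur c ξ ζ x = ur c ξ ζ x ∘L T := fun T h1 h2 => by
    change T * _ = _ * T
    simp only [ur, mul_sub, sub_mul, mul_smul_comm, smul_mul_assoc, h1, h2]
  refine ⟨?_, ?_, (cm _ (H.Jp x) (g_J m)).symm, fun b => ?_, fun s => ?_⟩
  · rw [trn_ur h, e]
    refine (k _ _).trans ?_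
    rw [mul_neg, sub_neg_eq_add, sq_add, add_neg_cancel, mul_zero, zero_smul, one_smul, add_zero]
  · rw [trn_ur h, e]
    refine (k _ _).trans ?_
    rw [neg_mul, sub_neg_eq_add, sq_add, neg_add_cancel, mul_zero, zero_smul, one_smul, add_zero]
  · rw [(H.cl x).proj b]
    exact cm _ (((H.cl x).pr b).trans ((H.cl x).pl b).symm) (g_ρ m b)
  · rw [H.jl]
    exact cm _ ((Wz78.j_p H x s).trans (H.pj x s).symm) (g_j m s)

theorem cs_ur (ζ : Circle) {x : M} {v : c.m.V} (h1 : c.m.p x v = v) (h2 : opL (ξ x) v = c.m.J v) :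
    cs c.m.J ζ (ur c ξ ζ x v) = v := by
  have e : c.m.J (c.m.J v) = -v := ap h.ad.ok.Jsq v
  simp only [cs, ur, sub_apply, smul_apply, h1, h2, map_sub, map_smul, e]
  linear_combination (norm := module) sq_add ζ • v

theorem sm_ur (ζ : Circle) : Sm I (ur c ξ ζ) := fun x =>
  (Wz78.SA.smul contMDiffAt_const (h.ad.ok.sp x)).sub
    (Wz78.SA.smul contMDiffAt_const (h.sp.toRed.sm_opL x))

theorem par_ur (ζ : Circle) (a : ι) (x : M) : nabE I G.F.e c.W a (ur c ξ ζ) x = 0 := by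
  have e := nabE_sub (e := G.F.e) (A := c.W) a
    (Wz78.SA.smul (contMDiffAt_const (c := (ζ : ℂ).re)) (h.ad.ok.sp x))
    (Wz78.SA.smul (contMDiffAt_const (c := (ζ : ℂ).im)) (h.sp.toRed.sm_opL x))
  rw [nabE_smul a contMDiffAt_const (h.ad.ok.sp x),
    nabE_smul a contMDiffAt_const (h.sp.toRed.sm_opL x), h.sp.toRed.nE,
    show nabE I G.F.e c.W a c.m.p x = 0 from h.ad.conn.cc.par a x] at e
  exact e.trans (by simp)

theorem mp_br (ζ : Circle) : Maps (bdm B c.m).pC (bdm B c.m).pC (br B c ξ ζ) := fun x v hv => by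
  have H := h.ad.ok
  have e := me_ur h ζ x
  have g := BE.refl h.hB x
  refine ext2 ?_ ?_
  · rw [f2_ps, br, f2_sm2]
    exact (e.p1 g h.hB h.hB H H _).trans (congrArg _ (maps_f2 x v hv))
  · rw [s2_ps, br, s2_sm2, ContinuousLinearMap.comp_apply, csL_apply, e.cs]
    refine (e.pp g h.hB h.hB H _).trans (congrArg _ ?_)
    exact (map_cs (Wz78.J_pp H x).symm _ _).trans (congrArg _ (maps_s2 x v hv))

theorem ce_br (r : ℕ) (ζ : Circle) (v : Sec I (bdm B c.m).pC) (p : Pz r) : Ce B G.F (cv c v.1 p)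
    (cv c (fun x => br B c ξ ζ x (v.1 x)) (((ζ : ℂ) ^ 2) • p)) (ur c ξ ζ) ζ := by
  have H := h.ad.ok
  have e := me_ur h ζ
  refine ⟨⟨(sm_ur h ζ).contMDiffOn, fun x _ => (e x).uu, fun x _ => (e x).uu', fun x _ => (e x).J,
    fun x _ => (e x).ρ, fun x _ => (e x).j⟩, fun x _ a => ?_, fun x _ => ?_, rfl⟩
  · have h1 := p1_sum (maps_f2 x _ (v.2.2.2 x))
    have h2 := p1_sum (maps_f2 x _ (mp_br h ζ x _ (v.2.2.2 x))) a
    have h3 : fa (br B c ξ ζ x (v.1 x)) a = cj (ur c ξ ζ x) (fa (v.1 x) a) := by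
      rw [br, f2_sm2, Eqv71.idx_apply, ← (h1 a).2]
      simp only [map_sum, map_smul]
    have h4 : opL (cj (ur c ξ ζ x) (fa (v.1 x) a)) ∘L ur c ξ ζ x =
        ur c ξ ζ x ∘L opL (fa (v.1 x) a) := by
      rw [opL_cj, ContinuousLinearMap.comp_assoc, ContinuousLinearMap.comp_assoc, (e x).uu]
      exact congrArg _ (g_p' H (h1 a).1)
    have h5 : ∑ b, B.P b a x • (c.W b x + opL (fa (br B c ξ ζ x (v.1 x)) b)) =
        c.W a x + opL (cj (ur c ξ ζ x) (fa (v.1 x) a)) := by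
      simp only [smul_add, sum_add_distrib, (h.hB.pr x).symm _ a, h.ad.conn.cc.proj, ← map_smul,
        ← map_sum]
      rw [h2.2, h3]
    have h6 := alg_par h5 h4 (G.F.D a (ur c ξ ζ) x)
    have h7 : G.F.D a (ur c ξ ζ) x + (c.W a x * ur c ξ ζ x - ur c ξ ζ x * c.W a x) = 0 :=
      par_ur h ζ a x
    simp only [Md.addC, id]
    exact h6.trans h7
  · change c.Φ x + fp (br B c ξ ζ x (v.1 x)) = csL c.m.J ζ (ur c ξ ζ x (c.Φ x + fp (v.1 x)))
    rw [map_add, map_add]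
    exact congrArg₂ (· + ·) (cs_ur h ζ (h.pt x).pΦ (h.sp.Φ x)).symm (s2_sm2 _ _ _)

variable [CompactSpace M]

theorem ub_br : (ub fun _ : Circle => G.F.toPre).mem fun ζ => br B c ξ ζ := by
  let K := ub fun _ : Circle => G.F.toPre
  have k0 : ∀ {N : Type} [NormedAddCommGroup N] [NormedSpace ℝ N] {f : M → N}, Sm I f →
      K.mem fun _ => f := fun hf => let ⟨C, hC⟩ := Cb_of_compact (F := G.F.toPre) hf; ⟨C, fun _ => hC⟩
  have k1 : ∀ f : Circle → ℝ, (∀ ζ, |f ζ| ≤ 1) → K.mem fun ζ _ => f ζ := fun f hf =>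
    ⟨fun _ => 1, fun ζ => ⟨contMDiff_const, fun k => CB_mono (CB_const k _) (hf ζ)⟩⟩
  have ka := k1 _ fun ζ => (Complex.abs_re_le_norm _).trans (Circle.norm_coe ζ).le
  have kb := k1 _ fun ζ => (Complex.abs_im_le_norm _).trans (Circle.norm_coe ζ).le
  have ku : K.mem fun ζ => ur c ξ ζ :=
    Cls.sub (Cls.smul ka (k0 h.ad.ok.sp)) (Cls.smul kb (k0 h.sp.toRed.sm_opL))
  exact Cls.pr2 (Cls.comp (Cls.idx (fun a b => k0 (h.hB.sP a b)) (mem_cj ku)) (K.const _))
    (Cls.comp (Cls.comp (K.add (Cls.smul ka (K.const _)) (Cls.smul kb (K.const _))) ku) (K.const _))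

/-- **ROT** -/
theorem rotQ : RotQ B G c ξ :=
  let ⟨C, hC⟩ := ub_br h
  ⟨fun ζ => ⟨C, hC ζ⟩, mp_br h,
    fun k => ⟨_, fun ζ => norm_mulH_le (hC ζ).1 ((hC ζ).2 k) (mp_br h ζ)⟩, ce_br h⟩

end Crest.Agent.X212.Tan54
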